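import Mathlib

namespace Vale.Agent.Lib.P042.Adaptive

/-- `d` is not a square modulo `M`. -/
def NS (M : ℕ) (d : ℤ) : Prop := ∀ z : ℤ, ¬ ((M : ℤ) ∣ z ^ 2 - d)

/-- `A ⊆ [0, M)` and no difference of two distinct elements is a square modulo `M`. -/
def SDF (M : ℕ) (A : Finset ℕ) : Prop :=
  (∀ x ∈ A, x < M) ∧ ∀ x ∈ A, ∀ y ∈ A, x ≠ y → NS M ((x : ℤ) - y)

lemma NS.of_dvd {q M : ℕ} {d : ℤ} (h : q ∣ M) (hd : NS q d) : NS M d := by
  intro z hz
  exact hd z (dvd_trans (Int.natCast_dvd_natCast.mpr h) hz)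

lemma NS.congr {q : ℕ} {d d' : ℤ} (h : (q : ℤ) ∣ d - d') (hd : NS q d) : NS q d' := by
  intro z hz
  apply hd z
  have : z ^ 2 - d = (z ^ 2 - d') - (d - d') := by ring
  rw [this]
  exact dvd_sub hz h

lemma NS.scale {n M : ℕ} {w : ℤ} (hn : 0 < n) (hw : NS M w) :
    NS (n ^ 2 * M) ((n : ℤ) ^ 2 * w) := by
  intro z hz
  push_cast at hz
  have h1 : (n : ℤ) ^ 2 ∣ z ^ 2 := by
    have h2 : (n : ℤ) ^ 2 ∣ z ^ 2 - (n : ℤ) ^ 2 * w := dvd_trans (dvd_mul_right _ _) hz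
    have := dvd_add h2 (dvd_mul_right ((n : ℤ) ^ 2) w)
    simpa using this
  have h3 : (n : ℤ) ∣ z := (Int.pow_dvd_pow_iff two_ne_zero).mp h1
  obtain ⟨z', rfl⟩ := h3
  apply hw z'
  have h4 : ((n : ℤ) * z') ^ 2 - (n : ℤ) ^ 2 * w = (n : ℤ) ^ 2 * (z' ^ 2 - w) := by ring
  rw [h4] at hz
  exact (mul_dvd_mul_iff_left (by positivity)).mp hz

/-- the digit combination `R + c * A`. -/
@[irreducible] def comb (c : ℕ) (R A : Finset ℕ) : Finset ℕ :=
  (R ×ˢ A).image (fun p => p.1 + c * p.2)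

lemma mem_comb {c : ℕ} {R A : Finset ℕ} {x : ℕ} :
    x ∈ comb c R A ↔ ∃ r ∈ R, ∃ y ∈ A, x = r + c * y := by
  unfold comb
  simp only [Finset.mem_image, Finset.mem_product, Prod.exists]
  constructor
  · rintro ⟨r, y, ⟨hr, hy⟩, rfl⟩
    exact ⟨r, hr, y, hy, rfl⟩
  · rintro ⟨r, hr, y, hy, rfl⟩
    exact ⟨r, y, ⟨hr, hy⟩, rfl⟩

lemma comb_inj {c r y r' y' : ℕ} (hr : r < c) (hr' : r' < c)
    (h : r + c * y = r' + c * y') : r = r' ∧ y = y' := by
  have hc : 0 < c := lt_of_le_of_lt (Nat.zero_le _) hr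
  have h1 : (r + c * y) % c = (r' + c * y') % c := by rw [h]
  rw [Nat.add_mul_mod_self_left, Nat.add_mul_mod_self_left, Nat.mod_eq_of_lt hr,
    Nat.mod_eq_of_lt hr'] at h1
  subst h1
  have h2 : c * y = c * y' := by omega
  exact ⟨rfl, Nat.eq_of_mul_eq_mul_left hc h2⟩

lemma comb_card {c : ℕ} {R A : Finset ℕ} (hR : ∀ r ∈ R, r < c) :
    (comb c R A).card = R.card * A.card := by
  unfold comb
  rw [Finset.card_image_of_injOn, Finset.card_product]
  rintro ⟨r, y⟩ h ⟨r', y'⟩ h' heq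
  simp only [Finset.coe_product, Set.mem_prod, Finset.mem_coe] at h h'
  obtain ⟨h1, h2⟩ := comb_inj (hR r h.1) (hR r' h'.1) heq
  exact Prod.ext h1 h2

lemma SDF.comb {n M : ℕ} {R A : Finset ℕ} (hn : 0 < n) (hR : SDF (n ^ 2) R) (hA : SDF M A) :
    SDF (n ^ 2 * M) (comb (n ^ 2) R A) := by
  constructor
  · intro x hx
    obtain ⟨r, hr, y, hy, rfl⟩ := mem_comb.mp hx
    have h1 := hR.1 r hr
    have h2 := hA.1 y hy
    calc r + n ^ 2 * y < n ^ 2 + n ^ 2 * y := by omega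
      _ = n ^ 2 * (y + 1) := by ring
      _ ≤ n ^ 2 * M := Nat.mul_le_mul_left _ h2
  · intro x hx x' hx' hne
    obtain ⟨r, hr, y, hy, rfl⟩ := mem_comb.mp hx
    obtain ⟨r', hr', y', hy', rfl⟩ := mem_comb.mp hx'
    by_cases hrr : r = r'
    · subst hrr
      have hyy : y ≠ y' := by
        rintro rfl
        exact hne rfl
      have h1 := (hA.2 y hy y' hy' hyy).scale hn
      have h2 : ((r + n ^ 2 * y : ℕ) : ℤ) - ((r + n ^ 2 * y' : ℕ) : ℤ)
          = (n : ℤ) ^ 2 * ((y : ℤ) - y') := by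
        push_cast
        ring
      rw [h2]
      exact h1
    · have h1 := hR.2 r hr r' hr' hrr
      apply NS.of_dvd (Dvd.intro _ rfl)
      refine NS.congr ?_ h1
      refine ⟨(y' : ℤ) - y, ?_⟩
      push_cast
      ring

lemma SDF.union {q M : ℕ} {A B : Finset ℕ} (hq : q ∣ M) (hA : SDF M A) (hB : SDF M B)
    (hAB : ∀ x ∈ A, ∀ y ∈ B, NS q ((x : ℤ) - y) ∧ NS q ((y : ℤ) - x)) :
    SDF M (A ∪ B) := by
  constructor
  · intro x hx
    rcases Finset.mem_union.mp hx with h | h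
    · exact hA.1 x h
    · exact hB.1 x h
  · intro x hx y hy hne
    rcases Finset.mem_union.mp hx with h | h <;> rcases Finset.mem_union.mp hy with h' | h'
    · exact hA.2 x h y h' hne
    · exact (hAB x h y h').1.of_dvd hq
    · exact (hAB y h' x h).2.of_dvd hq
    · exact hB.2 x h y h' hne

lemma NS.ne_zero {q : ℕ} {d : ℤ} (h : NS q d) : d ≠ 0 := by
  rintro rfl
  exact h 0 (by simp)

lemma SDF.disjoint {q : ℕ} {A B : Finset ℕ}
    (hAB : ∀ x ∈ A, ∀ y ∈ B, NS q ((x : ℤ) - y) ∧ NS q ((y : ℤ) - x)) :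
    Disjoint A B := by
  rw [Finset.disjoint_left]
  intro x hx hx'
  exact (hAB x hx x hx').1.ne_zero (by simp)


/-- the basic block `K + m * [0, m)` modulo `m ^ 2` for squarefree `m`. -/
lemma SDF.base {m : ℕ} {K : Finset ℕ} (hm : Squarefree m) (hK : SDF m K) :
    SDF (m ^ 2) (Adaptive.comb m K (Finset.range m)) := by
  have hm0 : 0 < m := Nat.pos_of_ne_zero hm.ne_zero
  have hmz : Squarefree (m : ℤ) := Int.squarefree_natCast.mpr hm
  constructor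
  · intro x hx
    obtain ⟨r, hr, y, hy, rfl⟩ := mem_comb.mp hx
    have h1 := hK.1 r hr
    have h2 := Finset.mem_range.mp hy
    calc r + m * y < m + m * y := by omega
      _ = m * (y + 1) := by ring
      _ ≤ m * m := Nat.mul_le_mul_left _ h2
      _ = m ^ 2 := by ring
  · intro x hx x' hx' hne
    obtain ⟨r, hr, y, hy, rfl⟩ := mem_comb.mp hx
    obtain ⟨r', hr', y', hy', rfl⟩ := mem_comb.mp hx'
    by_cases hrr : r = r'
    · subst hrr
      have hyy : y ≠ y' := by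
        rintro rfl
        exact hne rfl
      have h2 : ((r + m * y : ℕ) : ℤ) - ((r + m * y' : ℕ) : ℤ) = (m : ℤ) * ((y : ℤ) - y') := by
        push_cast
        ring
      rw [h2]
      intro z hz
      push_cast at hz
      have h3 : (m : ℤ) ∣ z ^ 2 := by
        have h4 : (m : ℤ) ∣ z ^ 2 - (m : ℤ) * ((y : ℤ) - y') :=
          dvd_trans (Dvd.intro_left ((m : ℤ) ^ 1) (by ring)) hz
        have := dvd_add h4 (dvd_mul_right (m : ℤ) ((y : ℤ) - y'))
        simpa using this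
      have h5 : (m : ℤ) ∣ z := (hmz.dvd_pow_iff_dvd two_ne_zero).mp h3
      obtain ⟨z', rfl⟩ := h5
      have h6 : (m : ℤ) ^ 2 ∣ (m : ℤ) * ((y : ℤ) - y') := by
        have h7 : (m : ℤ) ^ 2 ∣ ((m : ℤ) * z') ^ 2 := ⟨z' ^ 2, by ring⟩
        have := dvd_sub h7 hz
        simpa using this
      have h8 : (m : ℤ) ∣ (y : ℤ) - y' := by
        rw [pow_two] at h6
        exact (mul_dvd_mul_iff_left (by positivity)).mp h6
      have hy1 := Finset.mem_range.mp hy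
      have hy2 := Finset.mem_range.mp hy'
      have h9 : (y : ℤ) - y' = 0 := by
        apply Int.eq_zero_of_abs_lt_dvd h8
        rw [abs_lt]
        constructor <;> omega
      apply hyy
      omega
    · have h1 := hK.2 r hr r' hr' hrr
      apply NS.of_dvd (Dvd.intro_left (m ^ 1) (by ring))
      refine NS.congr ?_ h1
      refine ⟨(y' : ℤ) - y, ?_⟩
      push_cast
      ring

/-- reduction of `NS` to a finite check. -/
lemma NS.of_forall {q : ℕ} {d : ℤ} (hq : 0 < q)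
    (h : ∀ z ∈ Finset.range q, ¬ ((q : ℤ) ∣ (z : ℤ) ^ 2 - d)) : NS q d := by
  intro z hz
  have hq' : (0 : ℤ) < q := by exact_mod_cast hq
  have h0 : 0 ≤ z % q := Int.emod_nonneg _ hq'.ne'
  have h1 : z % q < q := Int.emod_lt_of_pos _ hq'
  obtain ⟨k, hk⟩ := Int.eq_ofNat_of_zero_le h0
  have hk' : k ∈ Finset.range q := by
    rw [Finset.mem_range]
    have : (k : ℤ) < q := by rw [← hk]; exact h1
    exact_mod_cast this
  apply h k hk'
  rw [← hk]
  have h2 : (q : ℤ) ∣ z - z % q := ⟨z / q, by have := Int.emod_add_mul_ediv z q; linarith⟩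
  have h3 : (z % q) ^ 2 - d = (z ^ 2 - d) - (z - z % q) * (z + z % q) := by ring
  rw [h3]
  exact dvd_sub hz (Dvd.dvd.mul_right h2 _)

/-- the ten residues modulo 205. -/
def K10 : Finset ℕ := {7, 13, 67, 85, 96, 111, 129, 140, 183, 194}

lemma K10_card : K10.card = 10 := by decide

lemma K10_41 : ∀ k ∈ K10, NS 41 (k : ℤ) ∧ NS 41 (-(k : ℤ)) := by
  intro k hk
  constructor
  · apply NS.of_forall (by norm_num)
    revert k
    decide
  · apply NS.of_forall (by norm_num)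
    revert k
    decide


lemma K10_pair : ∀ k ∈ K10, ∀ k' ∈ K10, k ≠ k' →
    (∀ z ∈ Finset.range 5, ¬ (((5 : ℕ) : ℤ) ∣ (z : ℤ) ^ 2 - ((k : ℤ) - k'))) ∨
    (∀ z ∈ Finset.range 41, ¬ (((41 : ℕ) : ℤ) ∣ (z : ℤ) ^ 2 - ((k : ℤ) - k'))) := by
  decide

lemma K10_SDF : SDF 205 K10 := by
  constructor
  · decide
  · intro k hk k' hk' hne
    rcases K10_pair k hk k' hk' hne with h | h
    · exact (NS.of_forall (by norm_num) h).of_dvd (by norm_num)
    · exact (NS.of_forall (by norm_num) h).of_dvd (by norm_num)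

lemma zero_SDF {m : ℕ} (hm : 0 < m) : SDF m {0} := by
  constructor
  · intro x hx
    rw [Finset.mem_singleton] at hx
    omega
  · intro x hx y hy hne
    rw [Finset.mem_singleton] at hx hy
    omega

/-- block of type I: multiples of 41 below `41 ^ 2`. -/
def R1 : Finset ℕ := comb 41 {0} (Finset.range 41)

/-- block of type II: residues congruent to an element of `K10` modulo 205, below `205 ^ 2`. -/
def R2 : Finset ℕ := comb 205 K10 (Finset.range 205)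

lemma sqf41 : Squarefree 41 := (by norm_num : Nat.Prime 41).squarefree

lemma sqf205 : Squarefree 205 := by
  have e : (205 : ℕ) = 5 * 41 := by norm_num
  rw [e, Nat.squarefree_mul (by norm_num)]
  exact ⟨(by norm_num : Nat.Prime 5).squarefree, sqf41⟩

lemma R1_SDF : SDF (41 ^ 2) R1 := SDF.base sqf41 (zero_SDF (by norm_num))

lemma R2_SDF : SDF (205 ^ 2) R2 := SDF.base sqf205 K10_SDF

lemma cross {c1 c2 : ℕ} (h1 : 41 ∣ c1) (h2 : 41 ∣ c2) {A1 A2 : Finset ℕ} :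
    ∀ x ∈ comb c1 R1 A1, ∀ y ∈ comb c2 R2 A2,
      NS 41 ((x : ℤ) - y) ∧ NS 41 ((y : ℤ) - x) := by
  obtain ⟨e1, rfl⟩ := h1
  obtain ⟨e2, rfl⟩ := h2
  intro x hx y hy
  obtain ⟨r, hr, u, _, rfl⟩ := mem_comb.mp hx
  obtain ⟨s, hs, v, _, rfl⟩ := mem_comb.mp hy
  obtain ⟨r0, hr0, t, _, rfl⟩ := mem_comb.mp hr
  obtain ⟨k, hk, j, _, rfl⟩ := mem_comb.mp hs
  rw [Finset.mem_singleton] at hr0
  subst hr0
  obtain ⟨ha, hb⟩ := K10_41 k hk
  constructor
  · refine NS.congr ?_ hb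
    refine ⟨-(t : ℤ) - e1 * u + 5 * j + e2 * v, ?_⟩
    push_cast
    ring
  · refine NS.congr ?_ ha
    refine ⟨(t : ℤ) + e1 * u - 5 * j - e2 * v, ?_⟩
    push_cast
    ring

lemma R1_card : R1.card = 41 := by
  unfold R1
  rw [comb_card]
  · simp
  · intro r hr
    rw [Finset.mem_singleton] at hr
    omega

lemma R2_card : R2.card = 2050 := by
  unfold R2
  rw [comb_card K10_SDF.1, K10_card]
  simp

/-- the adaptive step: `f (205 ^ 2 * M) ≥ 41 * f (25 * M) + 2050 * f M`. -/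
lemma step {M : ℕ} {A1 A2 : Finset ℕ} (h1 : SDF (25 * M) A1) (h2 : SDF M A2) :
    ∃ A : Finset ℕ, SDF (205 ^ 2 * M) A ∧ A.card = 41 * A1.card + 2050 * A2.card := by
  have hI : SDF (205 ^ 2 * M) (comb (41 ^ 2) R1 A1) := by
    have := SDF.comb (n := 41) (by norm_num) R1_SDF h1
    have e : 41 ^ 2 * (25 * M) = 205 ^ 2 * M := by ring
    rwa [e] at this
  have hII : SDF (205 ^ 2 * M) (comb (205 ^ 2) R2 A2) :=
    SDF.comb (n := 205) (by norm_num) R2_SDF h2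
  have hcross : ∀ x ∈ comb (41 ^ 2) R1 A1, ∀ y ∈ comb (205 ^ 2) R2 A2,
      NS 41 ((x : ℤ) - y) ∧ NS 41 ((y : ℤ) - x) :=
    cross (by norm_num) (by norm_num)
  refine ⟨comb (41 ^ 2) R1 A1 ∪ comb (205 ^ 2) R2 A2,
    SDF.union (q := 41) (Dvd.dvd.mul_right (by norm_num) _) hI hII hcross, ?_⟩
  rw [Finset.card_union_of_disjoint (SDF.disjoint hcross), comb_card R1_SDF.1,
    comb_card R2_SDF.1, R1_card, R2_card]

/-- type I only. -/
lemma stepI {M : ℕ} {A1 : Finset ℕ} (h1 : SDF M A1) :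
    ∃ A : Finset ℕ, SDF (41 ^ 2 * M) A ∧ A.card = 41 * A1.card :=
  ⟨comb (41 ^ 2) R1 A1, SDF.comb (n := 41) (by norm_num) R1_SDF h1, by
    rw [comb_card R1_SDF.1, R1_card]⟩

/-- the two-parameter family. -/
theorem family (b : ℕ) : ∀ a : ℕ, ∃ A : Finset ℕ, SDF ((5 ^ a * 41 ^ b) ^ 2) A ∧
    5 ^ a * 41 ^ b * (b.choose a * 10 ^ a) ≤ A.card := by
  induction b with
  | zero =>
    intro a
    refine ⟨{0}, zero_SDF (by positivity), ?_⟩
    rcases Nat.eq_zero_or_pos a with rfl | ha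
    · simp
    · rw [Nat.choose_eq_zero_of_lt ha]
      simp
  | succ b ih =>
    intro a
    cases a with
    | zero =>
      obtain ⟨A1, h1, c1⟩ := ih 0
      obtain ⟨A, hA, cA⟩ := stepI h1
      refine ⟨A, ?_, ?_⟩
      · have e : (5 ^ 0 * 41 ^ (b + 1)) ^ 2 = 41 ^ 2 * (5 ^ 0 * 41 ^ b) ^ 2 := by ring
        rw [e]
        exact hA
      · rw [cA]
        simp only [pow_zero, one_mul, Nat.choose_zero_right, mul_one] at c1 ⊢
        calc 41 ^ (b + 1) = 41 * 41 ^ b := by ring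
          _ ≤ 41 * A1.card := Nat.mul_le_mul_left _ c1
    | succ a =>
      obtain ⟨A1, h1, c1⟩ := ih (a + 1)
      obtain ⟨A2, h2, c2⟩ := ih a
      have e1 : (5 ^ (a + 1) * 41 ^ b) ^ 2 = 25 * (5 ^ a * 41 ^ b) ^ 2 := by ring
      rw [e1] at h1
      obtain ⟨A, hA, cA⟩ := step h1 h2
      refine ⟨A, ?_, ?_⟩
      · have e : (5 ^ (a + 1) * 41 ^ (b + 1)) ^ 2 = 205 ^ 2 * (5 ^ a * 41 ^ b) ^ 2 := by ring
        rw [e]
        exact hA
      · rw [cA, Nat.choose_succ_succ]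
        calc 5 ^ (a + 1) * 41 ^ (b + 1) * ((b.choose a + b.choose (a + 1)) * 10 ^ (a + 1))
            = 41 * (5 ^ (a + 1) * 41 ^ b * (b.choose (a + 1) * 10 ^ (a + 1)))
              + 2050 * (5 ^ a * 41 ^ b * (b.choose a * 10 ^ a)) := by ring
          _ ≤ 41 * A1.card + 2050 * A2.card :=
            Nat.add_le_add (Nat.mul_le_mul_left _ c1) (Nat.mul_le_mul_left _ c2)


lemma pigeon (x : ℝ) (b : ℕ) :
    ∃ a : ℕ, (1 + x) ^ b ≤ ((b : ℝ) + 1) * ((b.choose a : ℝ) * x ^ a) := by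
  have h1 : (x + 1) ^ b = ∑ m ∈ Finset.range (b + 1), x ^ m * 1 ^ (b - m) * (b.choose m : ℝ) :=
    add_pow x 1 b
  have hb : (0 : ℝ) < (b : ℝ) + 1 := by positivity
  have h2 : ∑ _m ∈ Finset.range (b + 1), (1 + x) ^ b / ((b : ℝ) + 1)
      ≤ ∑ m ∈ Finset.range (b + 1), x ^ m * 1 ^ (b - m) * (b.choose m : ℝ) := by
    rw [← h1, Finset.sum_const, Finset.card_range, nsmul_eq_mul]
    push_cast
    rw [mul_div_cancel₀ _ hb.ne', add_comm]
  obtain ⟨a, _, ha⟩ := Finset.exists_le_of_sum_le (by simp) h2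
  refine ⟨a, ?_⟩
  rw [div_le_iff₀ hb] at ha
  calc (1 + x) ^ b ≤ x ^ a * 1 ^ (b - a) * (b.choose a : ℝ) * ((b : ℝ) + 1) := ha
    _ = ((b : ℝ) + 1) * ((b.choose a : ℝ) * x ^ a) := by
      rw [one_pow]
      ring

lemma growth : ∃ b : ℕ, 0 < b ∧ ((b : ℝ) + 1) ≤ (1 + 1 / 5000 : ℝ) ^ b := by
  obtain ⟨n, hn⟩ : ∃ n : ℕ, (n : ℝ) = 50000000 := ⟨50000000, by norm_num⟩
  have hn0 : 0 < n := by
    rcases Nat.eq_zero_or_pos n with h | h
    · rw [h] at hn
      norm_num at hn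
    · exact h
  refine ⟨2 * n, by omega, ?_⟩
  have h1 : (1 : ℝ) + (n : ℝ) * (1 / 5000) ≤ (1 + 1 / 5000 : ℝ) ^ n :=
    one_add_mul_le_pow (by norm_num) n
  have h2 : (10001 : ℝ) ≤ (1 + 1 / 5000 : ℝ) ^ n := by
    refine le_trans ?_ h1
    rw [hn]
    norm_num
  rw [pow_mul']
  push_cast
  rw [hn]
  calc ((2 : ℝ) * 50000000 + 1) ≤ (10001 : ℝ) ^ 2 := by norm_num
    _ ≤ ((1 + 1 / 5000 : ℝ) ^ n) ^ 2 := by
      apply pow_le_pow_left₀ (by norm_num) h2

/-- a single modulus `Q ^ 2` whose exponent is at least `47 / 64`. -/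
theorem seed : ∃ Q : ℕ, 1 < Q ∧ ∃ A : Finset ℕ, SDF (Q ^ 2) A ∧ Q ^ 47 ≤ A.card ^ 32 := by
  obtain ⟨b, hb0, g1⟩ := growth
  obtain ⟨a, ha⟩ := pigeon (10 / (21264 / 10000 : ℝ)) b
  obtain ⟨A, hA, cA⟩ := family b a
  refine ⟨5 ^ a * 41 ^ b, ?_, A, hA, ?_⟩
  · have h5 : 1 ≤ 5 ^ a := Nat.one_le_pow _ _ (by norm_num)
    have h41 : 1 < 41 ^ b := Nat.one_lt_pow (by omega) (by norm_num)
    calc 1 < 41 ^ b := h41
      _ = 1 * 41 ^ b := (one_mul _).symm
      _ ≤ 5 ^ a * 41 ^ b := Nat.mul_le_mul_right _ h5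
  · set u : ℝ := 21264 / 10000 with hu
    set w : ℝ := 57016 / 10000 with hw
    have hu0 : 0 < u := by rw [hu]; norm_num
    have hw0 : 0 < w := by rw [hw]; norm_num
    have g2 : w * (1 + 1 / 5000) ≤ 1 + 10 / u := by
      rw [hu, hw]
      norm_num
    have g3 : w ^ b * ((b : ℝ) + 1) ≤ (1 + 10 / u) ^ b := by
      calc w ^ b * ((b : ℝ) + 1) ≤ w ^ b * (1 + 1 / 5000 : ℝ) ^ b :=
            mul_le_mul_of_nonneg_left g1 (by positivity)
        _ = (w * (1 + 1 / 5000)) ^ b := (mul_pow _ _ _).symm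
        _ ≤ (1 + 10 / u) ^ b := pow_le_pow_left₀ (by positivity) g2 _
    have g4 : w ^ b * u ^ a ≤ ((b.choose a * 10 ^ a : ℕ) : ℝ) := by
      have h3 := le_trans g3 ha
      have hb1 : (0 : ℝ) < (b : ℝ) + 1 := by positivity
      have h4 : w ^ b ≤ (b.choose a : ℝ) * (10 / u) ^ a := by
        have : ((b : ℝ) + 1) * w ^ b ≤ ((b : ℝ) + 1) * ((b.choose a : ℝ) * (10 / u) ^ a) := by
          rw [mul_comm ((b : ℝ) + 1) (w ^ b)]
          exact h3
        exact le_of_mul_le_mul_left this hb1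
      calc w ^ b * u ^ a ≤ (b.choose a : ℝ) * (10 / u) ^ a * u ^ a :=
            mul_le_mul_of_nonneg_right h4 (by positivity)
        _ = (b.choose a : ℝ) * 10 ^ a := by
          rw [div_pow, mul_assoc, div_mul_cancel₀ _ (by positivity)]
        _ = ((b.choose a * 10 ^ a : ℕ) : ℝ) := by push_cast; ring
    have g5 : ((5 : ℝ) ^ 15) ≤ u ^ 32 := by
      rw [hu]
      norm_num
    have g6 : ((41 : ℝ) ^ 15) ≤ w ^ 32 := by
      rw [hw]
      norm_num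
    have g7 : (((5 ^ a * 41 ^ b) ^ 15 : ℕ) : ℝ) ≤ (((b.choose a * 10 ^ a) ^ 32 : ℕ) : ℝ) := by
      calc (((5 ^ a * 41 ^ b) ^ 15 : ℕ) : ℝ) = ((41 : ℝ) ^ 15) ^ b * ((5 : ℝ) ^ 15) ^ a := by
            push_cast
            rw [mul_pow, ← pow_mul, ← pow_mul, ← pow_mul, ← pow_mul, mul_comm a 15,
              mul_comm b 15, mul_comm]
        _ ≤ (w ^ 32) ^ b * (u ^ 32) ^ a := by
            apply mul_le_mul (pow_le_pow_left₀ (by positivity) g6 _)
              (pow_le_pow_left₀ (by positivity) g5 _) (by positivity) (by positivity)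
        _ = (w ^ b * u ^ a) ^ 32 := by
            rw [mul_pow, ← pow_mul, ← pow_mul, ← pow_mul, ← pow_mul, mul_comm 32 b,
              mul_comm 32 a]
        _ ≤ (((b.choose a * 10 ^ a : ℕ) : ℝ)) ^ 32 :=
            pow_le_pow_left₀ (by positivity) g4 _
        _ = (((b.choose a * 10 ^ a) ^ 32 : ℕ) : ℝ) := by push_cast; ring
    have g8 : (5 ^ a * 41 ^ b) ^ 15 ≤ (b.choose a * 10 ^ a) ^ 32 := by exact_mod_cast g7
    calc (5 ^ a * 41 ^ b) ^ 47 = (5 ^ a * 41 ^ b) ^ 32 * (5 ^ a * 41 ^ b) ^ 15 := by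
          rw [← pow_add]
      _ ≤ (5 ^ a * 41 ^ b) ^ 32 * (b.choose a * 10 ^ a) ^ 32 := Nat.mul_le_mul_left _ g8
      _ = (5 ^ a * 41 ^ b * (b.choose a * 10 ^ a)) ^ 32 := (mul_pow _ _ _).symm
      _ ≤ A.card ^ 32 := Nat.pow_le_pow_left cA _


/-- self-similar iteration of one block. -/
lemma iterate {Q : ℕ} (hQ : 0 < Q) {A : Finset ℕ} (hA : SDF (Q ^ 2) A) (k : ℕ) :
    ∃ B : Finset ℕ, SDF ((Q ^ 2) ^ k) B ∧ B.card = A.card ^ k := by
  induction k with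
  | zero => exact ⟨{0}, by simpa using zero_SDF (m := 1) (by norm_num), by simp⟩
  | succ k ih =>
    obtain ⟨B, hB, cB⟩ := ih
    refine ⟨comb (Q ^ 2) A B, ?_, ?_⟩
    · have e : (Q ^ 2) ^ (k + 1) = Q ^ 2 * (Q ^ 2) ^ k := by ring
      rw [e]
      exact SDF.comb hQ hA hB
    · rw [comb_card hA.1, cB]
      ring

/-- from residues to integers: a set that is `SDF` modulo `M`, shifted by one, lies in `[1, M]`
and has no difference equal to a positive square. -/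
lemma SDF.toIcc {M : ℕ} {A : Finset ℕ} (hA : SDF M A) :
    ∃ B : Finset ℕ, B ⊆ Finset.Icc 1 M ∧ B.card = A.card ∧
      ∀ x ∈ B, ∀ y ∈ B, ∀ n : ℕ, 1 ≤ n → x ≠ y + n ^ 2 := by
  refine ⟨A.image (fun x => x + 1), ?_, ?_, ?_⟩
  · intro x hx
    obtain ⟨x0, hx0, rfl⟩ := Finset.mem_image.mp hx
    have := hA.1 x0 hx0
    rw [Finset.mem_Icc]
    omega
  · apply Finset.card_image_of_injective
    intro x y h
    simpa using h
  · intro x hx y hy n hn h
    obtain ⟨x0, hx0, rfl⟩ := Finset.mem_image.mp hx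
    obtain ⟨y0, hy0, rfl⟩ := Finset.mem_image.mp hy
    have hpos : 0 < n ^ 2 := by positivity
    have hne : x0 ≠ y0 := by omega
    apply hA.2 x0 hx0 y0 hy0 hne (n : ℤ)
    have e : (x0 : ℤ) - y0 = (n : ℤ) ^ 2 := by
      have : x0 = y0 + n ^ 2 := by omega
      rw [this]
      push_cast
      ring
    rw [e]
    simp

/-- the main theorem: `r(N) ≥ c * N ^ (47 / 64)`. -/
theorem main : ∃ c : ℝ, 0 < c ∧ ∀ N : ℕ, 1 ≤ N → ∃ A : Finset ℕ, A ⊆ Finset.Icc 1 N ∧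
    (∀ x ∈ A, ∀ y ∈ A, ∀ n : ℕ, 1 ≤ n → x ≠ y + n ^ 2) ∧
    c * (N : ℝ) ^ ((47 : ℝ) / 64) ≤ (A.card : ℝ) := by
  obtain ⟨Q, hQ1, A, hA, cA⟩ := seed
  have hQ0 : 0 < Q := by omega
  have hM1 : 1 < Q ^ 2 := Nat.one_lt_pow (by norm_num) hQ1
  refine ⟨1 / ((Q ^ 2 : ℕ) : ℝ), by positivity, ?_⟩
  intro N hN
  set k := Nat.log (Q ^ 2) N with hk
  have hk1 : (Q ^ 2) ^ k ≤ N := Nat.pow_log_le_self _ (by omega)
  have hk2 : N < (Q ^ 2) ^ (k + 1) := Nat.lt_pow_succ_log_self hM1 N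
  obtain ⟨B, hB, cB⟩ := iterate hQ0 hA k
  obtain ⟨C, hC1, hC2, hC3⟩ := hB.toIcc
  refine ⟨C, ?_, hC3, ?_⟩
  · intro x hx
    have := Finset.mem_Icc.mp (hC1 hx)
    rw [Finset.mem_Icc]
    omega
  · rw [hC2, cB]
    have hMpos : (0 : ℝ) < ((Q ^ 2 : ℕ) : ℝ) := by positivity
    rw [div_mul_eq_mul_div, one_mul, div_le_iff₀ hMpos]
    -- compare 64-th powers
    have hX0 : (0 : ℝ) ≤ (N : ℝ) ^ ((47 : ℝ) / 64) := by positivity
    have hX : ((N : ℝ) ^ ((47 : ℝ) / 64)) ^ 64 = (N : ℝ) ^ 47 := by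
      rw [← Real.rpow_natCast, ← Real.rpow_mul (by positivity)]
      norm_num
    have key : N ^ 47 ≤ (A.card ^ k * Q ^ 2) ^ 64 := by
      calc N ^ 47 ≤ ((Q ^ 2) ^ (k + 1)) ^ 47 := Nat.pow_le_pow_left hk2.le _
        _ = ((Q ^ 47) ^ 2) ^ k * (Q ^ 2) ^ 47 := by ring
        _ ≤ ((A.card ^ 32) ^ 2) ^ k * (Q ^ 2) ^ 64 := by
          apply Nat.mul_le_mul
          · exact Nat.pow_le_pow_left (Nat.pow_le_pow_left cA _) _
          · exact Nat.pow_le_pow_right (by positivity) (by norm_num)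
        _ = (A.card ^ k * Q ^ 2) ^ 64 := by ring
    have key' : ((N : ℝ) ^ ((47 : ℝ) / 64)) ^ 64 ≤ (((A.card ^ k : ℕ) : ℝ) * ((Q ^ 2 : ℕ) : ℝ)) ^ 64 := by
      rw [hX]
      exact_mod_cast key
    exact le_of_pow_le_pow_left₀ (by norm_num) (by positivity) key'

end Vale.Agent.Lib.P042.Adaptive
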